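import Vale.Agent.P011Z.Cl.Br3.Loc
import Vale.Agent.P011.Even.Completion

/-!
The choice of the simplest cubic: no root modulo finitely many given primes.
-/

open Polynomial Module NumberField IsDedekindDomain

noncomputable section

namespace Vale.Agent.P011Z.Cl.Br3x

open Vale.Agent.P011.Even

variable {k E : Type} [Field k] [NumberField k] [Field E] [NumberField E]

/-- The parameter. -/
theorem exists_glob (S : Set (HeightOneSpectrum (𝓞 k))) (hS : S.Finite) :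
    ∃ t : 𝓞 k, ∀ v ∈ S, ∀ a : 𝓞 k, gc t a ∉ v.asIdeal := by
  classical
  have h1 : ∀ v : HeightOneSpectrum (𝓞 k), ∃ t : 𝓞 k, ∀ a : 𝓞 k, gc t a ∉ v.asIdeal := by
    intro v
    have := v.isMaximal
    let _ : Field (𝓞 k ⧸ v.asIdeal) := Ideal.Quotient.field v.asIdeal
    have : Finite (𝓞 k ⧸ v.asIdeal) := v.asIdeal.finiteQuotientOfFreeOfNeBot v.ne_bot
    obtain ⟨t, ht⟩ := exists_par (F := 𝓞 k ⧸ v.asIdeal)
    obtain ⟨t, rfl⟩ := Ideal.Quotient.mk_surjective t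
    refine ⟨t, fun a ha => ht (Ideal.Quotient.mk _ a) ?_⟩
    exact (map_gc (Ideal.Quotient.mk v.asIdeal) t a).symm.trans
      (Ideal.Quotient.eq_zero_iff_mem.mpr ha)
  choose τ hτ using h1
  obtain ⟨t, ht⟩ := IsDedekindDomain.exists_forall_sub_mem_ideal (s := hS.toFinset)
    (fun v : HeightOneSpectrum (𝓞 k) => v.asIdeal) (fun _ => 1) (fun v _ => v.prime)
    (fun v _ v' _ h h' => h (HeightOneSpectrum.ext h')) (fun v => τ v)
  refine ⟨t, fun v hv a ha => hτ v a ?_⟩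
  have h2 := ht v (hS.mem_toFinset.mpr hv)
  rw [pow_one] at h2
  have h3 : gc (τ v) a = gc t a - (t - τ v) * (a - a ^ 2) := by
    simp only [gc]
    ring
  rw [h3]
  exact v.asIdeal.sub_mem ha (v.asIdeal.mul_mem_right _ h2)

omit [NumberField k] [NumberField E] in
/-- Extensions of degree at most two. -/
theorem up_two [Algebra k E] {v : HeightOneSpectrum (𝓞 k)} {w : HeightOneSpectrum (𝓞 E)}
    (hw : w.asIdeal.comap (algebraMap (𝓞 k) (𝓞 E)) = v.asIdeal) (hv : v.asIdeal.IsMaximal)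
    (hw' : w.asIdeal.IsMaximal) {t : 𝓞 k} (ht : ∀ a : 𝓞 k, gc t a ∉ v.asIdeal) (b : 𝓞 E)
    (hb : ∃ s n : 𝓞 k, b ^ 2 - algebraMap (𝓞 k) (𝓞 E) s * b + algebraMap (𝓞 k) (𝓞 E) n = 0) :
    gc (algebraMap (𝓞 k) (𝓞 E) t) b ∉ w.asIdeal := by
  intro h
  obtain ⟨s, n, hb⟩ := hb
  let _ : Field (𝓞 k ⧸ v.asIdeal) := Ideal.Quotient.field v.asIdeal
  let _ : Field (𝓞 E ⧸ w.asIdeal) := Ideal.Quotient.field w.asIdeal
  let φ : 𝓞 k ⧸ v.asIdeal →+* 𝓞 E ⧸ w.asIdeal :=
    Ideal.quotientMap w.asIdeal (algebraMap (𝓞 k) (𝓞 E)) hw.ge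
  have hφ : ∀ a : 𝓞 k, φ (Ideal.Quotient.mk _ a) =
      Ideal.Quotient.mk w.asIdeal (algebraMap (𝓞 k) (𝓞 E) a) := fun a => rfl
  obtain ⟨a, ha⟩ := root_down φ (t := Ideal.Quotient.mk _ t) (s := Ideal.Quotient.mk _ s)
    (n := Ideal.Quotient.mk _ n) (y := Ideal.Quotient.mk _ b) (by
      have h1 := congrArg (Ideal.Quotient.mk w.asIdeal) hb
      rw [map_add, map_sub, map_mul, map_pow, map_zero] at h1
      rw [hφ, hφ]
      exact h1) (by
      rw [hφ]
      exact (map_gc (Ideal.Quotient.mk w.asIdeal) _ b).symm.trans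
        (Ideal.Quotient.eq_zero_iff_mem.mpr h))
  obtain ⟨a, rfl⟩ := Ideal.Quotient.mk_surjective a
  exact ht a (Ideal.Quotient.eq_zero_iff_mem.mp
    ((map_gc (Ideal.Quotient.mk v.asIdeal) t a).trans ha))

theorem norm_int (w : HeightOneSpectrum (𝓞 E)) (b : 𝓞 E) :
    ‖algebraMap E (w.adicCompletion E) (algebraMap (𝓞 E) E b)‖ ≤ 1 := by
  rw [norm_le_one_iff, valued_alg]
  exact w.valuation_le_one b

/-- The passage to the completion. -/
theorem to_compl (w : HeightOneSpectrum (𝓞 E)) {t : 𝓞 E} (ht : ∀ b : 𝓞 E, gc t b ∉ w.asIdeal)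
    (a : w.adicCompletion E) (ha : ‖a‖ ≤ 1) :
    ¬ ‖gc (algebraMap E (w.adicCompletion E) (algebraMap (𝓞 E) E t)) a‖ < 1 := by
  intro h
  have hU := isUltra w
  obtain ⟨y, hy⟩ := dense w a 1 one_pos
  have hy1 : w.valuation E y ≤ 1 := by
    rw [← valued_alg, ← norm_le_one_iff]
    have h1 : algebraMap E (w.adicCompletion E) y = a - (a - algebraMap E _ y) := by ring
    rw [h1]
    exact nsub ha hy.le
  obtain ⟨b, hb⟩ := w.exists_valuation_sub_lt_of_integer hy1 1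
  rw [Units.val_one, ← valued_alg, ← norm_lt_one_iff, map_sub, norm_sub_rev] at hb
  have h2 := LocDiv.norm_sub_lt_trans hy hb
  have h3 := gc_close (norm_int w t) ha (norm_int w b) h2
  rw [norm_sub_rev] at h3
  rw [← sub_zero (gc _ a)] at h
  have h4 := LocDiv.norm_sub_lt_trans h3 h
  rw [sub_zero, ← map_gc, ← map_gc, norm_lt_one_iff, valued_alg,
    w.valuation_lt_one_iff_mem] at h4
  exact ht b h4

end Vale.Agent.P011Z.Cl.Br3x

end
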