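import Mathlib

/-!
The simplest cubic polynomials, and their roots in finite fields.
-/

open Polynomial Module

noncomputable section

namespace Vale.Agent.P011Z.Cl.Br3x

section ring

variable {A B : Type} [CommRing A] [CommRing B]

/-- The simplest cubic. -/
def gc (t y : A) : A := y ^ 3 - t * y ^ 2 + (t - 3) * y + 1

/-- Its derivative. -/
def gd (t y : A) : A := 3 * y ^ 2 - 2 * t * y + (t - 3)

/-- The polynomial. -/
def gp (t : A) : A[X] := X ^ 3 + (C (-t) * X ^ 2 + C (t - 3) * X + C 1)

theorem map_gc (φ : A →+* B) (t y : A) : φ (gc t y) = gc (φ t) (φ y) := by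
  simp only [gc, map_add, map_sub, map_mul, map_pow, map_one, map_ofNat]

theorem map_gd (φ : A →+* B) (t y : A) : φ (gd t y) = gd (φ t) (φ y) := by
  simp only [gd, map_add, map_sub, map_mul, map_pow, map_ofNat]

theorem aeval_gp [Algebra A B] (t : A) (y : B) : aeval y (gp t) = gc (algebraMap A B t) y := by
  simp only [gp, gc, map_add, map_mul, map_pow, aeval_X, aeval_C, map_neg, map_sub, map_one,
    map_ofNat]
  ring

theorem eval_gp (t y : A) : (gp t).eval y = gc t y := by
  simp only [gp, gc, eval_add, eval_mul, eval_pow, eval_X, eval_C]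
  ring

theorem aeval_gp' [Algebra A B] (t : A) (y : B) :
    aeval y (derivative (gp t)) = gd (algebraMap A B t) y := by
  simp only [gp, gd, derivative_add, derivative_C_mul, derivative_C, derivative_X_pow, derivative_X]
  simp only [map_add, map_mul, map_pow, aeval_X, aeval_C, map_neg, map_sub, map_one, map_ofNat,
    map_zero, map_natCast]
  push_cast
  ring

theorem eval_gp' (t y : A) : (derivative (gp t)).eval y = gd t y := by
  have h := aeval_gp' t y
  rwa [coe_aeval_eq_eval] at h

theorem degree_low (t : A) : (C (-t) * X ^ 2 + C (t - 3) * X + C 1 : A[X]).degree < 3 :=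
  lt_of_le_of_lt degree_quadratic_le (by norm_num)

theorem gp_monic (t : A) : (gp t).Monic := monic_X_pow_add (degree_low t)

theorem gp_deg [Nontrivial A] (t : A) : (gp t).natDegree = 3 := by
  rw [gp, natDegree_add_eq_left_of_degree_lt, natDegree_X_pow]
  rw [degree_X_pow]
  exact degree_low t

theorem gp_coeff (t : A) (i : ℕ) : (gp t).coeff i = 0 ∨ (gp t).coeff i = 1 ∨
    (gp t).coeff i = -t ∨ (gp t).coeff i = t - 3 := by
  simp only [gp, coeff_add, coeff_X_pow, coeff_C_mul, coeff_X, coeff_C]
  rcases i with _ | _ | _ | _ | i <;> simp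

theorem gc_sub (t t' y y' : A) : gc t y - gc t' y' =
    (y - y') * (y ^ 2 + y * y' + y' ^ 2 - t * (y + y') + (t - 3)) + (t - t') * (y' - y' ^ 2) := by
  simp only [gc]
  ring

end ring

section field

variable {F κ : Type} [Field F] [Field κ]

theorem gp_irr {t : F} (h : ∀ a, gc t a ≠ 0) : Irreducible (gp t) := by
  refine irreducible_of_degree_le_three_of_not_isRoot (by rw [gp_deg]; decide) fun a ha => ?_
  rw [IsRoot.def, eval_gp] at ha
  exact h a ha

/-- Some simplest cubic has no root in a finite field. -/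
theorem exists_par [Finite F] : ∃ t : F, ∀ a, gc t a ≠ 0 := by
  have h1 : ¬ Function.Surjective fun a : F => (a ^ 3 - 3 * a + 1) / (a ^ 2 - a) := by
    intro h
    have h2 := (Finite.injective_iff_surjective.mpr h) (a₁ := 0) (a₂ := 1) (by simp)
    exact zero_ne_one h2
  rw [Function.Surjective] at h1
  push Not at h1
  obtain ⟨t, ht⟩ := h1
  refine ⟨t, fun a ha => ht a ?_⟩
  have h2 : a ^ 2 - a ≠ 0 := by
    intro h
    have h3 : a * (a - 1) = 0 := by rw [← h]; ring
    rcases mul_eq_zero.mp h3 with h4 | h4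
    · rw [h4, gc] at ha
      simp at ha
    · rw [sub_eq_zero.mp h4, gc] at ha
      have h5 : (1 : F) = 0 := by linear_combination -ha
      exact one_ne_zero h5
  rw [div_eq_iff h2]
  rw [gc] at ha
  linear_combination ha

/-- A root in an extension which satisfies a quadratic equation gives a root in the base. -/
theorem root_down (φ : F →+* κ) {t s n : F} {y : κ} (h2 : y ^ 2 - φ s * y + φ n = 0)
    (h3 : gc (φ t) y = 0) : ∃ a, gc t a = 0 := by
  have h4 : φ (t - 3 - (n + s * (t - s))) * y + φ (1 + n * (t - s)) = 0 := by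
    simp only [map_add, map_sub, map_mul, map_one, map_ofNat]
    rw [gc] at h3
    linear_combination h3 - (y - (φ t - φ s)) * h2
  by_cases hA : t - 3 - (n + s * (t - s)) = 0
  · rw [hA, map_zero, zero_mul, zero_add, map_eq_zero] at h4
    refine ⟨t - s, ?_⟩
    rw [gc]
    linear_combination (t - s) * hA + h4
  · refine ⟨-(1 + n * (t - s)) / (t - 3 - (n + s * (t - s))), φ.injective ?_⟩
    have h5 : φ (-(1 + n * (t - s)) / (t - 3 - (n + s * (t - s)))) = y := by
      have h6 : φ (t - 3 - (n + s * (t - s))) ≠ 0 := (map_ne_zero φ).mpr hA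
      rw [map_div₀, map_neg, div_eq_iff h6]
      linear_combination -h4
    rw [map_gc, h5, h3, map_zero]

/-- A simplest cubic without a root in the fixed field of an automorphism of order three of a
finite field has a simple root. -/
theorem ff_root [Finite κ] (τ : κ →+* κ) (h3 : ∀ x, τ (τ (τ x)) = x) {x₀ : κ} (hx : τ x₀ ≠ x₀)
    {t : κ} (ht : τ t = t) (hno : ∀ a, τ a = a → gc t a ≠ 0) :
    ∃ y, gc t y = 0 ∧ gd t y ≠ 0 := by
  let F0 : Subfield κ := RingHom.eqLocusField τ (RingHom.id κ)
  let e : κ ≃+* κ := RingEquiv.ofRingHom τ (τ.comp τ) (RingHom.ext h3) (RingHom.ext h3)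
  let g : κ ≃ₐ[F0] κ := AlgEquiv.ofRingEquiv (f := e) fun r => r.2
  have hg3 : g ^ 3 = 1 := by
    ext x
    rw [pow_three, AlgEquiv.mul_apply, AlgEquiv.mul_apply]
    exact h3 x
  have hg1 : g ≠ 1 := by
    intro h
    apply hx
    have h1 : g x₀ = x₀ := by rw [h]; rfl
    exact h1
  have : Fact (Nat.Prime 3) := ⟨Nat.prime_three⟩
  have ho : orderOf g = 3 := orderOf_eq_prime hg3 hg1
  have hd : 3 ∣ finrank F0 κ := by
    rw [← IsGalois.card_aut_eq_finrank, ← ho]
    exact orderOf_dvd_natCard g
  let t0 : F0 := ⟨t, ht⟩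
  have hirr : Irreducible (gp t0) := by
    refine gp_irr fun a ha => hno a a.2 ?_
    have h1 := congrArg F0.subtype ha
    rw [map_gc, map_zero] at h1
    exact h1
  have : Fact (Irreducible (gp t0)) := ⟨hirr⟩
  have hrk : finrank F0 (AdjoinRoot (gp t0)) = 3 := by
    rw [(AdjoinRoot.powerBasis hirr.ne_zero).finrank, AdjoinRoot.powerBasis_dim, gp_deg]
  obtain ⟨ψ⟩ := FiniteField.nonempty_algHom_of_finrank_dvd (F := F0) (K := AdjoinRoot (gp t0))
    (L := κ) (by rw [hrk]; exact hd)
  have h1 : aeval (ψ (AdjoinRoot.root (gp t0))) (gp t0) = 0 := by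
    rw [aeval_algHom_apply, AdjoinRoot.aeval_eq, AdjoinRoot.mk_self, map_zero]
  have hsep : (gp t0).Separable := PerfectField.separable_of_irreducible hirr
  have h2 := hsep.aeval_derivative_ne_zero h1
  rw [aeval_gp] at h1
  rw [aeval_gp'] at h2
  exact ⟨_, h1, h2⟩

end field

end Vale.Agent.P011Z.Cl.Br3x

end
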