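import Vale.Agent.P011Z.Cl.Gal2
import Vale.Agent.P011Z.Cl.Br3.Cub

/-!
The character of a simplest cubic field, and the stable lines of the complex conjugations.
-/

open Polynomial

noncomputable section

namespace Vale.Agent.P011Z.Cl.Br3x

section roots

variable {F : Type} [Field F]

/-- The map of order three which permutes the roots. -/
def mo (y : F) : F := (1 - y)⁻¹

/-- The three roots. -/
def rt (x : F) : Fin 3 → F := ![x, mo x, mo (mo x)]

theorem ne0 {t x : F} (h : gc t x = 0) : x ≠ 0 := by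
  rintro rfl
  simp [gc] at h

theorem ne1 {t x : F} (h : gc t x = 0) : 1 - x ≠ 0 := by
  intro h1
  have h2 : x = 1 := by linear_combination -h1
  rw [h2, gc] at h
  have h5 : (1 : F) = 0 := by linear_combination -h
  exact one_ne_zero h5

theorem mo_mo {x : F} (h1 : 1 - x ≠ 0) : mo (mo x) = (x - 1) / x := by
  have h2 : 1 - (1 - x)⁻¹ = -x / (1 - x) := by
    field_simp
    ring
  rw [mo, mo, h2, inv_div, div_neg, ← neg_div, neg_sub]

theorem mo_rt {x : F} (h0 : x ≠ 0) (h1 : 1 - x ≠ 0) (i : Fin 3) :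
    mo (rt x i) = rt x (i + 1) := by
  fin_cases i
  · rfl
  · rfl
  · change mo (mo (mo x)) = x
    have h2 : 1 - (x - 1) / x = x⁻¹ := by
      field_simp
      ring
    rw [mo_mo h1, mo, h2, inv_inv]

theorem gc_fac {t x : F} (h : gc t x = 0) (y : F) :
    gc t y = (y - rt x 0) * (y - rt x 1) * (y - rt x 2) := by
  have h0 := ne0 h
  have h1 := ne1 h
  change _ = (y - x) * (y - mo x) * (y - mo (mo x))
  rw [mo_mo h1, mo]
  rw [gc] at h ⊢
  field_simp
  linear_combination (y - y ^ 2) * h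

theorem root_eq {t x y : F} (h : gc t x = 0) (hy : gc t y = 0) : ∃ j, y = rt x j := by
  rw [gc_fac h] at hy
  rcases mul_eq_zero.mp hy with h1 | h1
  · rcases mul_eq_zero.mp h1 with h2 | h2
    · exact ⟨0, sub_eq_zero.mp h2⟩
    · exact ⟨1, sub_eq_zero.mp h2⟩
  · exact ⟨2, sub_eq_zero.mp h1⟩

theorem rt_inj {x : F} (h0 : x ≠ 0) (h1 : 1 - x ≠ 0) {j : Fin 3} (hj : rt x j ≠ x) :
    Function.Injective (rt x) := by
  have h2 : ∀ i, rt x (i + 1) ≠ rt x i := by
    intro i hi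
    have h3 : rt x (i + 1 + 1) = rt x i := by rw [← mo_rt h0 h1, hi, mo_rt h0 h1, hi]
    have h4 : ∀ l, rt x l = rt x i := by
      intro l
      have h5 : ∀ i l : Fin 3, l = i ∨ l = i + 1 ∨ l = i + 1 + 1 := by decide
      rcases h5 i l with h6 | h6 | h6 <;> rw [h6]
      · exact hi
      · exact h3
    exact hj ((h4 j).trans (h4 0).symm)
  intro a b hab
  have h5 : ∀ a b : Fin 3, a = b ∨ a = b + 1 ∨ b = a + 1 := by decide
  rcases h5 a b with h6 | h6 | h6
  · exact h6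
  · rw [h6] at hab
    exact absurd hab (h2 b)
  · rw [h6] at hab
    exact absurd hab.symm (h2 a)

end roots

/-- The character of the cubic field. -/
theorem exists_chi {G K : Subgroup Gq} (hle : K ≤ G) {t : Om} (ht : Fx G t)
    (hno : ∀ y, Fx K y → gc t y ≠ 0) : ∃ (χ : Gq → Fin 3) (x : Om), Chi G χ ∧
      (∃ ρ ∈ K, χ ρ = 1) ∧ gc t x = 0 ∧ ∀ σ ∈ G, χ σ = 0 → σ x = x := by
  classical
  obtain ⟨x, hx⟩ := IsAlgClosed.exists_root (gp t) (by
    rw [degree_eq_natDegree (gp_monic t).ne_zero, gp_deg]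
    decide)
  rw [IsRoot.def, eval_gp] at hx
  have h0 := ne0 hx
  have h1 := ne1 hx
  have hroot : ∀ σ ∈ G, ∃ j, σ x = rt x j := by
    intro σ hσ
    refine root_eq hx ?_
    have h2 := map_gc (σ : Om →+* Om) t x
    rw [hx, map_zero] at h2
    have h3 : (σ : Om →+* Om) t = t := ht σ hσ
    rw [h3] at h2
    exact h2.symm
  obtain ⟨ρ, hρ, hρx⟩ : ∃ ρ ∈ K, ρ x ≠ x := by
    by_contra hcon
    push Not at hcon
    exact hno x hcon hx
  obtain ⟨j, hj⟩ := hroot ρ (hle hρ)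
  have hinj : Function.Injective (rt x) := rt_inj h0 h1 (j := j) (by rwa [← hj])
  let χ : Gq → Fin 3 := fun σ => Classical.epsilon fun j => σ x = rt x j
  have hχ : ∀ σ ∈ G, σ x = rt x (χ σ) := fun σ hσ => Classical.epsilon_spec (hroot σ hσ)
  have hmo : ∀ (σ : Gq) (y : Om), σ (mo y) = mo (σ y) := by
    intro σ y
    rw [mo, mo, map_inv₀, map_sub, map_one]
  have hrt : ∀ σ ∈ G, ∀ i, σ (rt x i) = rt x (χ σ + i) := by
    intro σ hσ i
    fin_cases i
    · exact (hχ σ hσ).trans (congrArg (rt x) (add_zero _).symm)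
    · change σ (mo x) = _
      rw [hmo, hχ σ hσ, mo_rt h0 h1]
      rfl
    · change σ (mo (mo x)) = _
      rw [hmo, hmo, hχ σ hσ, mo_rt h0 h1, mo_rt h0 h1, add_assoc]
      rfl
  have hmul : ∀ σ ∈ G, ∀ τ ∈ G, χ (σ * τ) = χ σ + χ τ := by
    intro σ hσ τ hτ
    apply hinj
    rw [← hχ _ (G.mul_mem hσ hτ), ← hrt σ hσ, ← hχ τ hτ]
    rfl
  refine ⟨χ, x, ⟨hmul, MulAction.stabilizer Gq x, opn_stab x, fun σ h2 hσ => ?_⟩, ?_, hx,
    fun σ hσ h2 => ?_⟩
  · apply hinj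
    rw [← hχ σ hσ]
    exact h2
  · have h2 : χ ρ ≠ 0 := by
      intro h3
      apply hρx
      rw [hχ ρ (hle hρ), h3]
      rfl
    have h3 : ∀ a : Fin 3, a ≠ 0 → a = 1 ∨ a + a = 1 := by decide
    rcases h3 _ h2 with h4 | h4
    · exact ⟨ρ, hρ, h4⟩
    · exact ⟨ρ * ρ, K.mul_mem hρ hρ, by rw [hmul ρ (hle hρ) ρ (hle hρ), h4]⟩
  · rw [hχ σ hσ, h2]
    rfl

/-- The complex conjugations have stable lines. -/
theorem real_line {V : Type} [AddCommGroup V] [Module Om V] {K : Subgroup Gq} {f : Gq → V → V}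
    (h : PA K f) {N : V → Om} (hh : ∀ (t : Om) x, N (t • x) = t ^ 3 * N x) (h0 : ∃ x, N x ≠ 0)
    (hm : ∀ σ ∈ K, ∃ l : Om, ∀ x, N (f σ x) = l * σ (N x)) {ι : Om →+* ℂ} {γ : Gq}
    (hc : Cj ι γ) (hγ : γ ∈ K) : ∃ x, x ≠ 0 ∧ ∃ t : Om, f γ x = t • x := by
  obtain ⟨x, hx⟩ := h0
  have hx0 : x ≠ 0 := by
    rintro rfl
    have h1 := hh 0 0
    rw [zero_smul, zero_pow three_ne_zero, zero_mul] at h1
    exact hx h1
  have hs := h.semi γ hγ
  obtain ⟨c, hc1⟩ := h.coc γ hγ γ hγ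
  obtain ⟨c', hc'⟩ := h.coc 1 K.one_mem 1 K.one_mem
  have h1 : ∀ y, f 1 y = c' • y := by
    intro y
    obtain ⟨z, rfl⟩ := (h.semi 1 K.one_mem).bij.2 y
    rw [hc', mul_one]
  have he : ∀ y, f γ (f γ y) = (c * c') • y := by
    intro y
    rw [hc1, hc.sq, h1, smul_smul]
  generalize c * c' = e at he
  have hfx : f γ x ≠ 0 := hs.ne hx0
  have he0 : e ≠ 0 := by
    rintro rfl
    have h2 := he x
    rw [zero_smul] at h2
    exact hs.ne hfx h2
  have hγe : γ e = e := by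
    have h2 := he (f γ x)
    rw [he x, hs.smul] at h2
    exact smul_left_injective Om hfx h2
  obtain ⟨l, hl⟩ := hm γ hγ
  have h3 : e ^ 3 = l * γ l := by
    have h2 := hl (f γ x)
    have h4 : γ (γ (N x)) = N x := by
      change (γ * γ) (N x) = _
      rw [hc.sq]
      rfl
    rw [he, hh, hl, map_mul, h4, ← mul_assoc] at h2
    exact mul_right_cancel₀ hx h2
  have hl0 : l ≠ 0 := by
    rintro rfl
    rw [zero_mul] at h3
    exact he0 (pow_eq_zero_iff three_ne_zero |>.mp h3)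
  have h4 := hc.norm_pos hl0
  have h5 : (ι e).im = 0 := hc.real.mp hγe
  have h6 : 0 < (ι e).re := by
    have h7 : ι e = ((ι e).re : ℂ) := by
      apply Complex.ext
      · rw [Complex.ofReal_re]
      · rw [Complex.ofReal_im, h5]
    rw [← h3, map_pow, h7, ← Complex.ofReal_pow, Complex.ofReal_re] at h4
    exact (Odd.pow_pos_iff (by decide)).mp h4
  obtain ⟨z, hz0, hγz, hz⟩ := hc.pos hγe h6
  by_cases hy : z • x + f γ x = 0
  · exact ⟨x, hx0, -z, by rw [neg_smul]; exact (neg_eq_of_add_eq_zero_right hy).symm⟩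
  · refine ⟨_, hy, z, ?_⟩
    rw [hs.add, hs.smul, hγz, he, hz, smul_add, smul_smul, pow_two, add_comm]

end Vale.Agent.P011Z.Cl.Br3x

end
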