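import Vale.Agent.P011Z.Cl.Br3.Cub
import Vale.Agent.P011.Pow.LQb
import Vale.Agent.P011.W.Root
import Vale.Agent.P011.W.MaxF

/-!
The unramified cubic extension splits the local division algebras of degree three.
-/

open Polynomial Module

noncomputable section

namespace Vale.Agent.P011Z.Cl.Br3x

open Vale.Agent.P011.Even.LocDiv Vale.Agent.P011.W Vale.Agent.P011.Pow.LQ

section norm

variable {W : Type} [NormedField W] [IsUltrametricDist W]

theorem nadd {a b : W} (ha : ‖a‖ ≤ 1) (hb : ‖b‖ ≤ 1) : ‖a + b‖ ≤ 1 :=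
  (IsUltrametricDist.norm_add_le_max a b).trans (max_le ha hb)

theorem nsub {a b : W} (ha : ‖a‖ ≤ 1) (hb : ‖b‖ ≤ 1) : ‖a - b‖ ≤ 1 := by
  rw [sub_eq_add_neg]
  exact nadd ha (by rwa [norm_neg])

omit [IsUltrametricDist W] in
theorem nmul {a b : W} (ha : ‖a‖ ≤ 1) (hb : ‖b‖ ≤ 1) : ‖a * b‖ ≤ 1 := by
  rw [norm_mul]
  exact mul_le_one₀ ha (norm_nonneg _) hb

omit [IsUltrametricDist W] in
theorem npow {a : W} (ha : ‖a‖ ≤ 1) (n : ℕ) : ‖a ^ n‖ ≤ 1 := by
  rw [norm_pow]
  exact pow_le_one₀ (norm_nonneg _) ha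

theorem nthree : ‖(3 : W)‖ ≤ 1 := by
  have h := IsUltrametricDist.norm_natCast_le_one W 3
  rwa [Nat.cast_ofNat] at h

theorem gc_close {t a b : W} (ht : ‖t‖ ≤ 1) (ha : ‖a‖ ≤ 1) (hb : ‖b‖ ≤ 1) (h : ‖a - b‖ < 1) :
    ‖gc t a - gc t b‖ < 1 := by
  rw [gc_sub, sub_self, zero_mul, add_zero, norm_mul]
  have h1 : ‖a ^ 2 + a * b + b ^ 2 - t * (a + b) + (t - 3)‖ ≤ 1 :=
    nadd (nsub (nadd (nadd (npow ha 2) (nmul ha hb)) (npow hb 2)) (nmul ht (nadd ha hb)))
      (nsub ht nthree)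
  calc _ ≤ ‖a - b‖ * 1 := by gcongr
    _ < 1 := by rwa [mul_one]

theorem ncoeff {t : W} (ht : ‖t‖ ≤ 1) (i : ℕ) : ‖(gp t).coeff i‖ ≤ 1 := by
  rcases gp_coeff t i with h | h | h | h <;> rw [h]
  · rw [norm_zero]
    exact zero_le_one
  · rw [norm_one]
  · rwa [norm_neg]
  · exact nsub ht nthree

/-- No root modulo the maximal ideal gives no root. -/
theorem no_root {t : W} (ht : ‖t‖ ≤ 1) (hno : ∀ a, ‖a‖ ≤ 1 → ¬ ‖gc t a‖ < 1) (a : W) :
    gc t a ≠ 0 := by
  intro h
  have h1 : ‖a‖ ≤ 1 := norm_root_le (gp_monic t) le_rfl (ncoeff ht) (by rw [eval_gp, h])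
  apply hno a h1
  rw [h, norm_zero]
  exact one_pos

/-- The root in a field with an automorphism of order three of the residue field. -/
theorem hens [ProperSpace W] (σ : W →+* W) (hσ : ∀ x, ‖σ x‖ = ‖x‖) (h3 : ∀ x, σ (σ (σ x)) = x)
    {ω : W} (hω : ‖ω‖ ≤ 1) (hne : 1 ≤ ‖σ ω - ω‖) {t : W} (ht : ‖t‖ ≤ 1) (hσt : σ t = t)
    (hno : ∀ a, ‖a‖ ≤ 1 → ‖σ a - a‖ < 1 → ¬ ‖gc t a‖ < 1) : ∃ y, gc t y = 0 := by
  let _ : Field (Res W) := Field.ofIsUnitOrEqZero (res_isUnit_or W)
  let π : ringO W →+* Res W := Ideal.Quotient.mk (idealM W)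
  have hπ : ∀ x : ringO W, π x = 0 ↔ ‖(x : W)‖ < 1 := fun x => Ideal.Quotient.eq_zero_iff_mem
  have hgc : ∀ a b : ringO W, ((gc a b : ringO W) : W) = gc (a : W) b := fun a b =>
    map_gc (ringO W).subtype a b
  have hgd : ∀ a b : ringO W, ((gd a b : ringO W) : W) = gd (a : W) b := fun a b =>
    map_gd (ringO W).subtype a b
  obtain ⟨y, hy1, hy2⟩ := ff_root (κ := Res W) (resMap σ hσ) (by
      intro a
      obtain ⟨x, rfl⟩ := Ideal.Quotient.mk_surjective a
      rw [resMap_mk, resMap_mk, resMap_mk]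
      congr 1
      exact Subtype.ext (h3 x)) (x₀ := π ⟨ω, hω⟩) (by
      intro h
      rw [resMap_mk, mk_eq_iff] at h
      exact absurd h (not_lt.mpr hne)) (t := π ⟨t, ht⟩) (by
      rw [resMap_mk]
      congr 1
      exact Subtype.ext hσt) (by
      intro a ha h
      obtain ⟨x, rfl⟩ := Ideal.Quotient.mk_surjective a
      rw [resMap_mk, mk_eq_iff] at ha
      have h1 : π (gc ⟨t, ht⟩ x) = 0 := (map_gc π _ _).trans h
      rw [hπ, hgc] at h1
      exact hno x x.2 ha h1)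
  obtain ⟨θ, rfl⟩ := Ideal.Quotient.mk_surjective y
  have h1 : π (gc ⟨t, ht⟩ θ) = 0 := (map_gc π _ _).trans hy1
  have h2 : π (gd ⟨t, ht⟩ θ) ≠ 0 := fun h => hy2 ((map_gd π _ _).symm.trans h)
  rw [hπ, hgc] at h1
  rw [Ne, hπ, hgd, not_lt] at h2
  obtain ⟨x, hx⟩ := exists_root (gp t) (θ : W) (M := 1) (fun k => by
    have h4 := norm_taylor_le (gp t) (θ := (θ : W)) le_rfl θ.2 (ncoeff ht) le_rfl k
    rwa [one_pow, one_mul] at h4) (by
    rw [eval_gp, eval_gp', one_mul]
    exact h1.trans_le (one_le_pow₀ h2))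
  exact ⟨x, by rwa [eval_gp] at hx⟩

end norm

section cyc

variable {k E : Type} [NontriviallyNormedField k] [ProperSpace k]
  [NormedDivisionRing E] [NormedAlgebra k E] [IsUltrametricDist E] [FiniteDimensional k E]
  [CharZero k] [Algebra.IsCentral k E]

theorem root_cyc (R : Frame E) (hq : finrank k E = 3 ^ 2) {t : k} (ht : ‖t‖ ≤ 1)
    (hno : ∀ a, ‖a‖ ≤ 1 → ¬ ‖gc t a‖ < 1) : ∃ x : E, aeval x (gp t) = 0 := by
  obtain ⟨W, _, _, _, ⟨C⟩⟩ := exists_cyc (k := k) R
  have hm : C.m = 3 := m_eq C hq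
  let nd : NormedDivisionRing W := NormedDivisionRing.induced W E C.ι C.inj
  let _ : NormedField W := { nd with mul_comm := mul_comm }
  have hn : ∀ w : W, ‖w‖ = ‖C.ι w‖ := fun _ => rfl
  have hU : IsUltrametricDist W :=
    IsUltrametricDist.isUltrametricDist_of_forall_norm_add_le_max_norm fun x y => by
      rw [hn, hn, hn, map_add]
      exact IsUltrametricDist.norm_add_le_max _ _
  let _ : NormedSpace k W :=
    { (inferInstance : Module k W) with
      norm_smul_le := fun c x => by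
        rw [hn, hn, map_smul]
        exact norm_smul_le c (C.ι x) }
  have hP : ProperSpace W := FiniteDimensional.proper k W
  have hal : ∀ c : k, ‖algebraMap k W c‖ = ‖c‖ := fun c => C.norm_alg c
  have hσ : ∀ x : W, ‖C.σ x‖ = ‖x‖ := fun x => C.norm_σ 1 x
  have hσω : ∀ n : ℕ, C.σ (C.ω ^ n) = C.ω ^ (n * R.j) := fun n => by
    have h1 := C.σ_ωl 1 n
    rwa [pow_one] at h1
  obtain ⟨y, hy⟩ := hens (C.σ : W →+* W) hσ (by
      intro x
      have h1 := C.σ_m x
      rw [hm] at h1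
      exact h1) (ω := C.ω) (by
      have h1 := C.norm_ω 1
      rw [pow_one] at h1
      exact h1.le) (by
      have h1 := C.norm_ζ_sub (a := 1) (b := 0) one_ne_zero (by omega) (by omega)
      have h2 := hσω 1
      rw [pow_one, one_mul] at h2
      rw [pow_zero, pow_one, pow_one, ← C.hω, ← map_pow, ← map_sub, ← h2] at h1
      exact h1.ge) (t := algebraMap k W t) (by rwa [hal]) (C.σ.commutes t) (by
      intro a ha h1 h2
      obtain ⟨c, hc⟩ : ∃ c : k, ‖a - algebraMap k W c‖ < 1 := by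
        rcases ha.lt_or_eq with h3 | h3
        · exact ⟨0, by rwa [map_zero, sub_zero]⟩
        · obtain ⟨i, hi⟩ := R.gen (C.ι a) h3
          have h4 : ‖a - C.ω ^ i‖ < 1 := by rwa [hn, map_sub, map_pow, C.hω]
          have h5 : ‖C.σ (C.ω ^ i) - C.ω ^ i‖ < 1 := by
            refine norm_sub_lt_trans ?_ (norm_sub_lt_trans h1 h4)
            change ‖C.σ (C.ω ^ i) - C.σ a‖ < 1
            rwa [← map_sub, hσ, norm_sub_rev]
          have h6 : C.σ (C.ω ^ i) = C.ω ^ i := by
            rw [hσω] at h5 ⊢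
            rw [hn, map_sub, map_pow, map_pow, C.hω] at h5
            apply C.inj
            rw [map_pow, map_pow, C.hω]
            exact R.pow_inj h5
          obtain ⟨c, hc⟩ := C.exists_base h6
          exact ⟨c, by rwa [hc]⟩
      have hc1 : ‖algebraMap k W c‖ ≤ 1 := by
        have h3 : algebraMap k W c = a - (a - algebraMap k W c) := by ring
        rw [h3]
        exact nsub ha hc.le
      have h3 := gc_close (t := algebraMap k W t) (by rwa [hal]) ha hc1 hc
      apply hno c (by rwa [hal] at hc1)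
      rw [← hal, map_gc]
      rw [norm_sub_rev] at h3
      rw [← sub_zero (gc _ a)] at h2
      have h4 := norm_sub_lt_trans h3 h2
      rwa [sub_zero] at h4)
  refine ⟨C.ι y, ?_⟩
  rw [aeval_algHom_apply, aeval_gp, hy, map_zero]

end cyc

/-- The local splitting. -/
theorem loc3 {k E : Type} [NontriviallyNormedField k] [IsUltrametricDist k] [ProperSpace k]
    [CharZero k] [DivisionRing E] [Algebra k E] [FiniteDimensional k E] [Algebra.IsCentral k E]
    (hq : finrank k E = 3 ^ 2) {t : k} (ht : ‖t‖ ≤ 1) (hno : ∀ a, ‖a‖ ≤ 1 → ¬ ‖gc t a‖ < 1)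
    {M : Type} [Field M] (φ : k →+* M) {y : M} (hy : gc (φ t) y = 0) : Spl E 3 φ := by
  obtain ⟨x, hx⟩ : ∃ x : E, aeval x (gp t) = 0 := by
    let _ : NormedDivisionRing E := ndr k
    let _ : NormedAlgebra k E :=
      { (inferInstance : Algebra k E) with
        norm_smul_le := fun c x => by
          change nm k (c • x) ≤ ‖c‖ * nm k x
          rw [Algebra.smul_def, nm_mul, nm_algebraMap] }
    have hU : IsUltrametricDist E :=
      IsUltrametricDist.isUltrametricDist_of_forall_norm_add_le_max_norm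
        (fun x y => nm_add_le_max k x y)
    have : ProperSpace E := FiniteDimensional.proper k E
    obtain ⟨c, hc0, hc1⟩ := NormedField.exists_norm_lt_one k
    have hc : ‖algebraMap k E c‖ = ‖c‖ := nm_algebraMap k c
    have hcne : algebraMap k E c ≠ 0 := by
      rw [← norm_ne_zero_iff, hc]
      exact hc0.ne'
    obtain ⟨R⟩ := exists_frame (algebraMap k E c) hcne (by rw [hc]; exact hc1)
    exact root_cyc R hq ht hno
  have hmin : gp t = minpoly k x :=
    minpoly.eq_of_irreducible_of_monic (gp_irr (no_root ht hno)) hx (gp_monic t)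
  let _ : Algebra k M := φ.toAlgebra
  exact spl_of_root hq x (by rw [← hmin, gp_deg]) y (by rw [← hmin, aeval_gp]; exact hy)

end Vale.Agent.P011Z.Cl.Br3x

end
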